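import Mathlib

/-! # P022-CFT: one tame conductor for all `2`-adic precisions -/

namespace Vale.Agent.P022.H651

/-- `α ≡ 1 mod P` gives `α ^ (P ^ r) ≡ 1 mod P ^ (r + 1)` -/
lemma pow_dvd {A : Type*} [CommRing A] (P : ℕ) {α : A} (h : (P : A) ∣ α - 1) (r : ℕ) :
    ((P ^ (r + 1) : ℕ) : A) ∣ α ^ (P ^ r) - 1 := by
  induction r with
  | zero => simpa using h
  | succ r ih =>
    have h1 : α ^ (P ^ (r + 1)) - 1 =
        (∑ i ∈ Finset.range P, (α ^ (P ^ r)) ^ i) * (α ^ (P ^ r) - 1) := by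
      rw [geom_sum_mul, pow_succ, pow_mul]
    have h2 : (P : A) ∣ α ^ (P ^ r) - 1 := by
      refine dvd_trans ?_ ih
      rw [pow_succ, Nat.cast_mul]
      exact Dvd.intro_left _ rfl
    have h3 : (P : A) ∣ ∑ i ∈ Finset.range P, (α ^ (P ^ r)) ^ i := by
      have h4 : ∑ i ∈ Finset.range P, (α ^ (P ^ r)) ^ i =
          ∑ i ∈ Finset.range P, ((α ^ (P ^ r)) ^ i - 1) + (P : A) := by
        rw [Finset.sum_sub_distrib]; simp
      rw [h4]
      refine dvd_add (Finset.dvd_sum fun i _ => ?_) dvd_rfl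
      exact h2.trans (sub_one_dvd_pow_sub_one _ i)
    rw [h1, pow_succ' P (r + 1), Nat.cast_mul]
    exact mul_dvd_mul h3 ih

/-- odd powers do not change the distance to `1` of an element of the open unit ball around `1` -/
lemma norm_pow_sub_one {E : Type*} [NontriviallyNormedField E] [NormedAlgebra ℚ_[2] E]
    [IsUltrametricDist E] {x : E} (hx : ‖x - 1‖ < 1) {n : ℕ} (hn : Odd n) :
    ‖x ^ n - 1‖ = ‖x - 1‖ := by
  have hx1 : ‖x‖ ≤ 1 := by
    have : x = (x - 1) + 1 := by ring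
    rw [this]
    exact (IsUltrametricDist.norm_add_le_max _ _).trans (max_le hx.le (by simp))
  have hpow : ∀ i : ℕ, ‖x ^ i - 1‖ ≤ ‖x - 1‖ := by
    intro i
    induction i with
    | zero => simp
    | succ i ih =>
      have h1 : x ^ (i + 1) - 1 = x * (x ^ i - 1) + (x - 1) := by ring
      rw [h1]
      refine (IsUltrametricDist.norm_add_le_max _ _).trans (max_le ?_ le_rfl)
      rw [norm_mul]
      calc ‖x‖ * ‖x ^ i - 1‖ ≤ 1 * ‖x - 1‖ :=
            mul_le_mul hx1 ih (norm_nonneg _) zero_le_one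
        _ = ‖x - 1‖ := one_mul _
  have hnn : ‖(n : E)‖ = 1 := by
    have h1 : (n : E) = algebraMap ℚ_[2] E (n : ℚ_[2]) := by simp
    rw [h1, norm_algebraMap', Padic.norm_natCast_eq_one_iff]
    exact Nat.coprime_two_left.2 hn
  have hs : ‖∑ i ∈ Finset.range n, x ^ i‖ = 1 := by
    have h4 : ∑ i ∈ Finset.range n, x ^ i = ∑ i ∈ Finset.range n, (x ^ i - 1) + (n : E) := by
      rw [Finset.sum_sub_distrib]; simp
    have h5 : ‖∑ i ∈ Finset.range n, (x ^ i - 1)‖ < 1 := by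
      refine lt_of_le_of_lt ?_ hx
      exact IsUltrametricDist.norm_sum_le_of_forall_le_of_nonneg (norm_nonneg _)
        (fun i _ => hpow i)
    rw [h4]
    rw [IsUltrametricDist.norm_add_eq_max_of_norm_ne_norm (by rw [hnn]; exact h5.ne), hnn]
    exact max_eq_right h5.le
  rw [← geom_sum_mul, norm_mul, hs, one_mul]

/-- one tame conductor for all precisions -/
theorem one_m {A : Type*} [CommRing A] {E : Type*} [NontriviallyNormedField E]
    [NormedAlgebra ℚ_[2] E] [IsUltrametricDist E] (P : ℕ) (hP : Odd P) (Q : A → Prop)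
    (hQ : ∀ α n, Q α → Q (α ^ n)) (f : A →* E)
    (h : ∀ ε : ℝ, 0 < ε → ∃ k : ℕ, ∀ α, Q α → (((2 * P) ^ k : ℕ) : A) ∣ α - 1 →
      ‖f α - 1‖ < ε) :
    ∃ k : ℕ, ∀ ε : ℝ, 0 < ε → ∃ r : ℕ, ∀ α, Q α → ((2 ^ r * P ^ (k + 1) : ℕ) : A) ∣ α - 1 →
      ‖f α - 1‖ < ε := by
  obtain ⟨k, hk⟩ := h 1 one_pos
  refine ⟨k, fun ε hε => ?_⟩
  obtain ⟨s, hs⟩ := h ε hε
  refine ⟨max k s, fun α hα hd => ?_⟩
  have h1 : ((P ^ (k + 1) : ℕ) : A) ∣ α - 1 := by
    refine dvd_trans ?_ hd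
    rw [Nat.cast_mul]; exact Dvd.intro_left _ rfl
  have h2 : ((2 ^ max k s : ℕ) : A) ∣ α - 1 := by
    refine dvd_trans ?_ hd
    rw [Nat.cast_mul]; exact Dvd.intro _ rfl
  have hlt : ‖f α - 1‖ < 1 := by
    apply hk α hα
    refine dvd_trans ?_ hd
    apply Nat.cast_dvd_cast
    rw [mul_pow]
    exact mul_dvd_mul (pow_dvd_pow 2 (le_max_left _ _)) (pow_dvd_pow P (Nat.le_succ _))
  have hPd : (P : A) ∣ α - 1 := by
    refine dvd_trans ?_ h1
    rw [pow_succ, Nat.cast_mul]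
    exact Dvd.intro_left _ rfl
  have h3 : ((P ^ s : ℕ) : A) ∣ α ^ (P ^ s) - 1 := by
    refine dvd_trans ?_ (pow_dvd P hPd s)
    exact Nat.cast_dvd_cast (pow_dvd_pow P (Nat.le_succ _))
  have h4 : ((2 ^ s : ℕ) : A) ∣ α ^ (P ^ s) - 1 := by
    refine dvd_trans ?_ (sub_one_dvd_pow_sub_one α (P ^ s))
    refine dvd_trans ?_ h2
    exact Nat.cast_dvd_cast (pow_dvd_pow 2 (le_max_right _ _))
  have hcop : IsCoprime ((2 ^ s : ℕ) : A) ((P ^ s : ℕ) : A) := by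
    have : IsCoprime ((2 ^ s : ℕ) : ℤ) ((P ^ s : ℕ) : ℤ) := by
      rw [Nat.isCoprime_iff_coprime]
      exact Nat.Coprime.pow s s (Nat.coprime_two_left.2 hP)
    have h5 := this.map (Int.castRingHom A)
    simpa using h5
  have h6 : (((2 * P) ^ s : ℕ) : A) ∣ α ^ (P ^ s) - 1 := by
    rw [mul_pow, Nat.cast_mul]
    exact hcop.mul_dvd h4 h3
  have h7 := hs (α ^ (P ^ s)) (hQ α _ hα) h6
  rw [map_pow, norm_pow_sub_one hlt (hP.pow)] at h7
  exact h7

end Vale.Agent.P022.H651
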