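import Vale.Agent.P022.H916.Fld2
import Vale.Agent.P022.H48.Fsum

/-! # P022-CFT, block [FCH]: reciprocity for characters of finite order of `G_K` -/

open NumberField IsDedekindDomain Finset Matrix
open scoped Pointwise

set_option linter.unusedSectionVars false

noncomputable section

namespace Vale.Agent.P022.H651

open Vale.Agent.P022 Vale.Agent.P022.C

lemma exists_prime_mem {R : Type*} [CommRing R] {P : Ideal R} (hP : P.IsPrime) {N : ℕ}
    (hN : N ≠ 0) (h : (N : R) ∈ P) : ∃ ℓ : ℕ, ℓ.Prime ∧ (ℓ : R) ∈ P := by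
  induction N using Nat.strong_induction_on with
  | _ N ih =>
    by_cases h1 : N = 1
    · exfalso
      rw [h1, Nat.cast_one] at h
      exact hP.ne_top ((Ideal.eq_top_iff_one _).2 h)
    · obtain ⟨ℓ, hℓ, M, rfl⟩ := Nat.exists_prime_and_dvd h1
      rw [Nat.cast_mul] at h
      rcases hP.mem_or_mem h with h2 | h2
      · exact ⟨ℓ, hℓ, h2⟩
      · have hM : M ≠ 0 := by rintro rfl; exact hN (mul_zero _)
        refine ih M ?_ hM h2
        have := hℓ.two_le
        have := Nat.pos_of_ne_zero hM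
        nlinarith

section main

variable {K : Type} [Field K] [NumberField K] {j : K →+* Qb}

/-- Frobenius elements exist in `G_K` at every prime of `K` -/
lemma exists_frI (j : K →+* Qb) (v : HeightOneSpectrum (𝓞 K)) :
    ∃ (P : Ideal (𝓞 Qb)) (g : GK j), FrI j v P g := by
  obtain ⟨P, hP, hb⟩ := H916.exists_above j v.asIdeal v.isPrime
  have hN : Ideal.absNorm v.asIdeal ≠ 0 := by
    rw [Ne, Ideal.absNorm_eq_zero_iff]
    exact v.ne_bot
  have hNP : ((Ideal.absNorm v.asIdeal : ℕ) : 𝓞 Qb) ∈ P := by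
    have h1 : ((Ideal.absNorm v.asIdeal : ℕ) : 𝓞 K) ∈ below j P := by
      rw [hb]
      exact Ideal.absNorm_mem _
    have h2 : RingOfIntegers.mapRingHom j ((Ideal.absNorm v.asIdeal : ℕ) : 𝓞 K) ∈ P := h1
    rwa [map_natCast] at h2
  obtain ⟨ℓ, hℓ, hl⟩ := exists_prime_mem hP hN hNP
  obtain ⟨g, hg⟩ := H916.exists_frob j hP hℓ hl
  rw [hb] at hg
  exact ⟨P, g, hP, hb, hg⟩

/-- complex conjugations exist in `G_K` at every real place of `K` -/
lemma exists_cjI (j : K →+* Qb) (φ : K →+* ℝ) : ∃ g : GK j, CjI j φ g := by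
  obtain ⟨ι, hι⟩ := H916.exists_extend j (Complex.ofRealHom.comp φ)
  have hι' : ∀ x : K, ι (j x) = (φ x : ℂ) := hι
  obtain ⟨c, hc⟩ := H916.exists_conj_elt ι
  refine ⟨⟨c, H916.mem_GK_of_real hc fun x => ?_⟩, ι, hι', hc⟩
  rw [hι', Complex.conj_ofReal]

variable {L : Type} [Field L] [NumberField L] [Algebra K L] {jL : L →+* Qb}
  {res : GK j →* (L ≃ₐ[K] L)}

/-- a Frobenius element commuting with `τ` is a Frobenius element at `τ P` -/
lemma frob_conj {s τ : L ≃ₐ[K] L} (hc : s * τ = τ * s) {q : ℕ} {P : Ideal (𝓞 L)}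
    (h : Frob s q P) : Frob s q (τ • P) := by
  intro x
  rw [Ideal.mem_pointwise_smul_iff_inv_smul_mem]
  have hc' : τ⁻¹ * s = s * τ⁻¹ := by
    rw [inv_mul_eq_iff_eq_mul, ← mul_assoc, ← hc, mul_assoc, mul_inv_cancel, mul_one]
  have h1 : τ⁻¹ • (s • x - x ^ q) = s • (τ⁻¹ • x) - (τ⁻¹ • x) ^ q := by
    rw [smul_sub, smul_pow', smul_smul, smul_smul, hc']
  rw [h1]
  exact h _

/-- the restriction of a Frobenius element at one prime above `v` is a Frobenius element at all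
primes of `L` above `v`, if `Gal(L/K)` is commutative -/
lemma frob_all (D : H916.Dict j jL res) {v : HeightOneSpectrum (𝓞 K)} {Q : Ideal (𝓞 Qb)}
    {g : GK j} (hF : FrI j v Q g) (hcomm : ∀ s t : L ≃ₐ[K] L, s * t = t * s) {P : Ideal (𝓞 L)}
    (hP : P.IsPrime) (hPv : dn K P = v.asIdeal) :
    Frob (res g) (Ideal.absNorm v.asIdeal) P := by
  obtain ⟨Q₁, hQ₁, hb⟩ := H916.exists_above jL P hP
  have h1 : below j Q = below j Q₁ := by
    rw [hF.2.1, ← D.below_comap Q₁, hb]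
    exact hPv.symm
  obtain ⟨h, hh⟩ := H916.exists_smul j hF.1 hQ₁ h1
  have h2 : P = res h • below jL Q := by
    rw [← hb, hh, D.below_smul]
  rw [h2]
  apply frob_conj (hcomm _ _)
  exact D.frob_push hF.2.2

lemma below_ne_bot (jL : L →+* Qb) {P : Ideal (𝓞 Qb)} (hP : P ≠ ⊥) : below jL P ≠ ⊥ := by
  obtain ⟨x, hx, hx0⟩ := Submodule.exists_mem_ne_zero_of_ne_bot hP
  have h1 : Ideal.comap (algebraMap ℤ (𝓞 Qb)) P ≠ ⊥ :=
    Ideal.comap_ne_bot_of_integral_mem hx0 hx (RingOfIntegers.isIntegral x)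
  obtain ⟨N, hN, hN0⟩ := Submodule.exists_mem_ne_zero_of_ne_bot h1
  intro h
  have h2 : ((N : ℤ) : 𝓞 L) ∈ below jL P := by
    show RingOfIntegers.mapRingHom jL ((N : ℤ) : 𝓞 L) ∈ P
    rw [map_intCast]
    simpa using hN
  rw [h, Ideal.mem_bot] at h2
  exact hN0 (by exact_mod_cast h2)

lemma natCast_mem_below (j : K →+* Qb) {P : Ideal (𝓞 Qb)} {m : ℕ} :
    (m : 𝓞 K) ∈ below j P ↔ (m : 𝓞 Qb) ∈ P := by
  show RingOfIntegers.mapRingHom j (m : 𝓞 K) ∈ P ↔ _
  rw [map_natCast]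

end main

/-- [FCH] -/
theorem FCH (hR : RECStmt) : FCHStmt := by
  intro K _ _ j n hn θ hop
  have : NeZero n := ⟨hn.ne'⟩
  obtain ⟨L, _, _, _, hgal, jL, res, n', σ, g₀, D, hk, hcyc, hσ, hpow⟩ :=
    H916.exists_Cyc j (φ := θ) hop
  have hall : ∀ g : GK j, ∃ i : ℕ, res g = σ ^ i := by
    intro g
    have hfd : FiniteDimensional K L := Module.Finite.of_restrictScalars_finite ℚ K L
    have hcard : Nat.card (L ≃ₐ[K] L) = n' := by
      rw [IsGalois.card_aut_eq_finrank, hcyc.rank]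
    have h1 : Subgroup.zpowers σ = ⊤ := by
      apply Subgroup.eq_top_of_card_eq
      rw [Nat.card_zpowers, hcyc.ord, hcard]
    have h2 : res g ∈ Subgroup.zpowers σ := by rw [h1]; trivial
    rw [← mem_powers_iff_mem_zpowers] at h2
    obtain ⟨i, hi⟩ := h2
    exact ⟨i, hi.symm⟩
  have hcomm : ∀ s t : L ≃ₐ[K] L, s * t = t * s := by
    intro s t
    obtain ⟨g, rfl⟩ := D.surj s
    obtain ⟨h, rfl⟩ := D.surj t
    obtain ⟨a, ha⟩ := hall g
    obtain ⟨b, hb⟩ := hall h
    rw [ha, hb, ← pow_add, ← pow_add, add_comm]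
  obtain ⟨m, hm0, hm1, hm2, hrec⟩ := hR K L n' σ hcyc
  refine ⟨m, hm0, ?_, ?_, ?_⟩
  · -- primes dividing `m` are ramified
    intro p hp hpm
    obtain ⟨P, hP, hpP, hun⟩ := hm1 p hp hpm
    obtain ⟨Q, hQ, hb⟩ := H916.exists_above jL P hP
    have hpQ : (p : 𝓞 Qb) ∈ Q := by
      rw [← natCast_mem_below jL, hb]
      exact hpP
    unfold Unr at hun
    push Not at hun
    obtain ⟨i, hi, hne⟩ := hun
    rw [← hb] at hi
    obtain ⟨g, hg, hin⟩ := D.inertia_lift hQ hi
    refine ⟨Q, hQ, hpQ, g, hin, fun h1 => hne ?_⟩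
    rw [← hg]
    exact (hk g).2 h1
  · -- primes not dividing `m` are unramified
    intro P hP hP0 hmP g hg
    have h1 : Unr σ (below jL P) := by
      apply hm2
      · exact Ideal.IsPrime.comap _
      · exact below_ne_bot jL hP0
      · rw [natCast_mem_below]
        exact hmP
    obtain ⟨i, hi⟩ := hall g
    have h2 : σ ^ i = 1 := by
      apply h1
      intro x
      rw [← hi]
      exact D.inertia_push hg x
    rw [← hk, hi, h2]
  · intro f hf c hc α hα hmα
    set t : ZMod n := Multiplicative.toAdd (θ g₀) with ht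
    have hpt : ∀ i : ℕ, Multiplicative.toAdd (θ g₀ ^ i) = i • t := fun i => rfl
    -- Frobenius exponents
    have hA : ∀ v : HeightOneSpectrum (𝓞 K), ∃ a : ℕ,
        (∀ P : Ideal (𝓞 L), P.IsPrime → dn K P = v.asIdeal →
          Frob (σ ^ a) (Ideal.absNorm v.asIdeal) P) ∧
        ((m : 𝓞 K) ∉ v.asIdeal → f v = a • t) := by
      intro v
      obtain ⟨Q, g, hF⟩ := exists_frI j v
      obtain ⟨a, ha⟩ := hall g
      refine ⟨a, fun P hP hPv => ?_, fun hv => ?_⟩
      · rw [← ha]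
        exact frob_all D hF hcomm hP hPv
      · rw [← hf v Q g hv hF, (hpow g a).1 ha, hpt]
    choose a ha1 ha2 using hA
    -- conjugation exponents
    have hB : ∀ φ : K →+* ℝ, ∃ b : ℕ,
        (∀ ρ : L →+* ℂ, (∀ x, ρ (algebraMap K L x) = (φ x : ℂ)) →
          ∀ x, starRingEnd ℂ (ρ x) = ρ ((σ ^ b) x)) ∧ c φ = b • t := by
      intro φ
      obtain ⟨g, hg⟩ := exists_cjI j φ
      obtain ⟨b, hb⟩ := hall g
      have h1 : θ g = θ g₀ ^ b := (hpow g b).1 hb
      have h2 : c φ = b • t := by rw [← hc φ g hg, h1, hpt]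
      refine ⟨b, fun ρ hρ x => ?_, h2⟩
      obtain ⟨ι, hι⟩ := H916.exists_extend jL ρ
      obtain ⟨c', hc'⟩ := H916.exists_conj_elt ι
      have hιj : ∀ y : K, ι (j y) = (φ y : ℂ) := by
        intro y
        rw [← D.comp, hι, hρ]
      have hmem : c' ∈ GK j := H916.mem_GK_of_real hc' fun y => by
        rw [hιj, Complex.conj_ofReal]
      have hcj : CjI j φ ⟨c', hmem⟩ := ⟨ι, hιj, hc'⟩
      have h3 : Multiplicative.toAdd (θ ⟨c', hmem⟩) = b • t := by
        rw [hc φ _ hcj, h2]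
      have h4 : θ ⟨c', hmem⟩ = θ g₀ ^ b := by
        apply Multiplicative.toAdd.injective
        rw [h3, hpt]
      have h5 := (hpow _ b).2 h4
      rw [← hι, ← hι, ← h5]
      exact (D.conj_push (c := ⟨c', hmem⟩) hc' x).symm
    choose b hb1 hb2 using hB
    have hdiv := hrec a (fun v P _ hP hPv => ha1 v P hP hPv) b hb1 α hα hmα
    refine H48.fsum (n' := n') t ?_ α hα f a ?_ c b hb2 hdiv
    · -- `n' • t = 0`
      rw [← hpt]
      have h0 : res 1 = σ ^ n' := by
        rw [map_one]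
        conv_rhs => rw [← hcyc.ord]
        rw [pow_orderOf_eq_one]
      have h1 : θ g₀ ^ n' = 1 := by
        rw [← (hpow 1 n').1 h0, map_one]
      rw [h1]; rfl
    · intro v hv
      apply ha2
      intro hmv
      exact hv (H48.ordv_of_dvd m α hmα v hmv)

end Vale.Agent.P022.H651
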